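import Vale.Agent.P352.NG.Loc2

/-!
# P352 NG: null generators are the special conformal generators that act locally
-/

set_option linter.all false

noncomputable section

open MeasureTheory Filter Topology

namespace Vale.Agent.P352.NG

open GF (Ix V Fn Fld Theory IsLor bas eta o sim bar)
open H246 H496 H755 H15 H846 H746 N86 NC NF
open H121 (Cop)
open H731 (KC)
open H148 (XK isSim_XK)

variable {D : Type*} [NormedAddCommGroup D] [InnerProductSpace ℂ D]
variable {Q : GF.Theory D} {T : Ix → Ix → GF.Fld D} {J : Ix → GF.Fld D}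
  {A : (V → V) → D → D} {G K : V → D → D}

/-- on the vectors of the tensor fields the generators `K a` depend linearly on `a` -/
theorem klin_ten {K : V → D → D} {C : D → D} {ι : Type*} [Fintype ι] (n : ι → V) (c : ι → ℝ)
    (hc : ∑ i, c i • n i = 0) (k : ∀ i, KC Q A (n i) (K (n i)) C) (R : Rep Q A) {l : ℕ} {d : ℝ}
    {Φ : (Fin l → Ix) → GF.Fld D} (hΦ : H846.IsTen Q l d Φ) (μ : Fin l → Ix) {f : Fn}
    (hf : GF.IsTest f) : ∑ i, (c i : ℂ) • K (n i) (Φ μ f Q.vac) = 0 := by
  refine ND.z_ten (Z := G.H15.Zc n c K) (fun v w => ?_) (fun x v => ?_) (fun s v hs => ?_) hΦ μ hf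
  · unfold G.H15.Zc
    rw [sum_inner, inner_sum]
    refine Finset.sum_congr rfl fun i _ => ?_
    rw [inner_smul_left, inner_smul_right, (k i).ks]
    simp
  · unfold G.H15.Zc
    have e1 : U1 Q x (∑ i, (c i : ℂ) • K (n i) v) = ∑ i, (c i : ℂ) • U1 Q x (K (n i) v) :=
      G.H15.U_sum one_pos isLor_one _ _ _ _
    have e3 := G.H15.A_sum R Finset.univ n c x.ofLp (U1 Q x v)
    rw [hc] at e3
    have e : G.H15.Xf 0 x.ofLp = fun _ => 0 := by
      funext z k
      simp [G.H15.Xf, cK, GF.mdot]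
    rw [e, G.H15.A_zero R] at e3
    have e4 : ∑ i, c i * GF.mdot (n i) x.ofLp = 0 := by
      have h1 : GF.mdot (∑ i, c i • n i) x.ofLp = ∑ i, c i * GF.mdot (n i) x.ofLp := by
        simp only [GF.mdot, Finset.sum_apply, Pi.smul_apply, smul_eq_mul, Finset.mul_sum,
          Finset.sum_mul]
        rw [Finset.sum_comm]
        refine Finset.sum_congr rfl fun i _ => Finset.sum_congr rfl fun j _ => ?_
        ring
      rw [← h1, hc]
      simp [GF.mdot]
    rw [e1]
    have e5 : ∀ i, (c i : ℂ) • U1 Q x (K (n i) v) = (c i : ℂ) • K (n i) (U1 Q x v) +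
        (c i : ℂ) • A (G.H15.Xf (n i) x.ofLp) (U1 Q x v) -
        ((2 * (c i * GF.mdot (n i) x.ofLp) : ℝ) : ℂ) • C (U1 Q x v) := by
      intro i
      rw [(k i).KU1 x v]
      have e6 : XK (n i) x.ofLp = G.H15.Xf (n i) x.ofLp := rfl
      rw [e6]
      push_cast
      module
    rw [Finset.sum_congr rfl fun i _ => e5 i, Finset.sum_sub_distrib, Finset.sum_add_distrib, ← e3,
      ← Finset.sum_smul, ← Complex.ofReal_sum, ← Finset.mul_sum, e4]
    simp
  · unfold G.H15.Zc
    rw [G.H15.U_sum hs isLor_one, Finset.smul_sum]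
    refine Finset.sum_congr rfl fun i _ => ?_
    rw [(k i).kc s GF.one 1 v hs one_pos isLor_one (by rw [H731.sim_scale, one_smul]), smul_smul,
      smul_smul]
    congr 1
    have : (s : ℂ) ≠ 0 := by exact_mod_cast hs.ne'
    push_cast
    field_simp

section

variable (hT : Q.IsStress T) (hJ : IsVirial Q T J) (h : NG.NullGen Q T J A G)
  (hP : ND.PCh Q T A)
include hT hJ h hP

/-- one neutral charge for all null vectors -/
theorem exists_kc : ∃ C : D → D, Neutral Q T J A C ∧ ∀ a, IsNull a → KC Q A a (G a) C := by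
  obtain ⟨a0, ha0⟩ : ∃ a : V, IsNull a := ⟨H15.a0, H15.npr0.1⟩
  have h1 := nullGen_nd hT hJ h hP
  have cT : ∀ {a : V} {C : D → D}, H731.KC Q A a (G a) C → ∀ m n f v, GF.IsTest f →
      C (T m n f v) = T m n f (C v) := fun k m n f v hf => ND.c6_T' hT k m n (h1.netT hT m n) hf v
  refine ⟨ND.Cc Q A G a0, neutral hT hJ h hP ha0, fun a ha => ?_⟩
  obtain ⟨b, hb, hab⟩ := H755.exists_dual ha
  have e : ND.Cc Q A G a0 = Cop Q A G a b := funext fun v =>
    cc_ng hT hJ h1.toKS h1.bdd hP (h1.netT hT) cT ha0 ha hb hab v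
  rw [e]
  exact kc_ng hT hJ h1.toKS h1.bdd hP (h1.netT hT) ha hb hab

/-- the data for a field that commutes with the charge -/
theorem exists_sgl : ∃ C : D → D, Neutral Q T J A C ∧ ConfC Q A G C ∧
    (∀ m n, Sgl Q A G (fun _ => C) (T m n)) ∧ (∀ m, Sgl Q A G (fun _ => C) (J m)) ∧
    ∀ {l : ℕ} {d : ℝ} {Φ : (Fin l → Ix) → GF.Fld D} (hΦ : H846.IsTen Q l d Φ) (μ : Fin l → Ix)
      (n : Fin 4 → V) (c : Fin 4 → ℝ), (∀ i, IsNull (n i)) → ∑ i, c i • n i = 0 →
      ∀ f, GF.IsTest f → ∑ i, (c i : ℂ) • G (n i) (Φ μ f Q.vac) = 0 := by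
  obtain ⟨C, hC, hk⟩ := exists_kc hT hJ h hP
  have ht : ∀ a x v, IsNull a → Q.U 1 GF.one x (G a (Q.U 1 GF.one (-x) v)) = G a v +
    A (fun z => -(2 * GF.mdot a x) • z + (2 * GF.mdot x z) • a - (2 * GF.mdot a z) • x + cK a x) v -
      ((2 * GF.mdot a x : ℝ) : ℂ) • C v := fun a x v ha => (hk a ha).tra x v
  refine ⟨C, hC,
    { toRep := h.toRep
      symm := h.symm
      cov := h.cov
      tra := ht }, fun m n => ?_, fun m => ?_, fun hΦ μ n c hn hc f hf =>
        klin_ten n c hc (fun i => hk _ (hn i)) h.toRep hΦ μ hf⟩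
  · exact
      { symm := h.symm
        tra := ht
        fld := Q.bose_fld _ (hT.bose m n)
        herm := hT.herm m n
        locG := h.locT m n
        locA := NF.locA_T hT h.toRep m n
        comC := fun a f v _ hf => hC.comT m n f v hf }
  · exact
      { symm := h.symm
        tra := ht
        fld := Q.bose_fld _ (hJ.bose m)
        herm := hJ.herm m
        locG := h.locJ m
        locA := NF.locA_J hJ h.toRep m
        comC := fun a f v _ hf => hC.comJ m f v hf }

/-- **The null generators act locally on the stress tensor and the virial current.** -/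
theorem locF_TJ : (∀ m n, LocF Q G (T m n)) ∧ ∀ m, LocF Q G (J m) := by
  obtain ⟨C, -, -, sT, sJ, hl⟩ := exists_sgl hT hJ h hP
  have h0 : ∀ a, IsNull a → G a Q.vac = 0 := fun a ha => NF.f2_Kvac hT h.toKS ha
  exact ⟨fun m n => (sT m n).locF h0 (hl (H746.isTen_T hT) ![m, n]),
    fun m => (sJ m).locF h0 (hl (H746.isTen_J hJ) ![m])⟩

end

/-- special conformal generators up to a charge that act locally are null generators -/
theorem of_confC {C : D → D} (h : ConfC Q A K C) (hT : ∀ m n, LocF Q K (T m n))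
    (hJ : ∀ m, LocF Q K (J m)) : NG.NullGen Q T J A K where
  toRep := h.toRep
  symm := h.symm
  cov := h.cov
  tra a x v ha hx := by
    have h1 := h.tra a x v ha
    rw [hx, mul_zero, Complex.ofReal_zero, zero_smul, sub_zero] at h1
    rw [h1]
    congr 2
    funext z
    unfold XX
    rw [hx, mul_zero]
  locT m n := locG_of_locF (hT m n)
  locJ m := locG_of_locF (hJ m)

/-- **Null generators are the special conformal generators, up to one neutral charge, that act
locally on the stress tensor and the virial current.** -/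
theorem nullGen_iff (hT : Q.IsStress T) (hJ : IsVirial Q T J) (hP : ND.PCh Q T A) :
    NG.NullGen Q T J A G ↔ (∃ C, Neutral Q T J A C ∧ ConfC Q A G C) ∧
      (∀ m n, LocF Q G (T m n)) ∧ ∀ m, LocF Q G (J m) := by
  constructor
  · intro h
    obtain ⟨C, hC, hc, -⟩ := exists_sgl hT hJ h hP
    exact ⟨⟨C, hC, hc⟩, locF_TJ hT hJ h hP⟩
  · rintro ⟨⟨C, -, hc⟩, lT, lJ⟩
    exact of_confC hc lT lJ

/-- If the vacuum is cyclic for `T` and `J`, the null generators are the special conformal
generators that act locally on `T` and `J`. -/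
theorem nullGen_iff_cyc (hT : Q.IsStress T) (hJ : IsVirial Q T J) (hP : ND.PCh Q T A)
    (hc : Cyc Q T J) : NG.NullGen Q T J A G ↔ ConfGen Q A G ∧
      (∀ m n, LocF Q G (T m n)) ∧ ∀ m, LocF Q G (J m) :=
  ⟨fun h => ⟨confGen_of hT hJ h hP hc, locF_TJ hT hJ h hP⟩, fun h => of_conf h.1 h.2.1 h.2.2⟩

end Vale.Agent.P352.NG

end
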