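import Vale.Agent.P352.NG.Defs
import Vale.Agent.P352.NR.X3
import Vale.Agent.P352.NR.Q3
import Vale.Agent.P352.ND.NG
import Vale.Agent.P352.ND.Bd

/-!
# P352 NG: polynomial bounds are automatic
-/

set_option linter.all false

noncomputable section

open MeasureTheory Filter Topology

namespace Vale.Agent.P352.NG

open GF (Ix V Fn Fld Theory IsLor bas eta o sim)
open H246 H496 H755 H15 H846 H746 N86 NC NF
open H121 (Cop)

variable {D : Type*} [NormedAddCommGroup D] [InnerProductSpace ℂ D]
variable {Q : GF.Theory D} {T : Ix → Ix → GF.Fld D} {J : Ix → GF.Fld D}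
  {A : (V → V) → D → D} {G : V → D → D}

/-- polynomial bounds on the orbits of the translations -/
theorem lb_ng (hT : Q.IsStress T) (hJ : IsVirial Q T J) (h : NullGen Q T J A G)
    (hP : ND.PCh Q T A) : ND.LB Q G := by
  have hKS := h.toKS
  have hLT : ∀ m n, ND.LocG Q G (T m n) := h.locT
  have hl : NR.LB Q G := fun a b v ha => NR.bdd_ng hT hJ hKS hP hLT ha b v
  intro a v ha
  obtain ⟨b, hb, hab⟩ := H755.exists_dual ha
  have hx : ∀ v, Xi A G a b v = 0 := fun v => NR.xi_ng' hT hJ hKS hP hLT ha b v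
  exact ND.lb_kc (ND.kc_of hKS (NR.ck_of hKS hl) ha hb hab fun u t v =>
    NR.sd_of_xi hKS hl ha hb hab hx u t v) v

/-- the conversion -/
theorem nullGen_nd (hT : Q.IsStress T) (hJ : IsVirial Q T J) (h : NullGen Q T J A G)
    (hP : ND.PCh Q T A) : ND.NullGen Q T J A G :=
  { toKS := h.toKS
    bdd := lb_ng hT hJ h hP
    locT := h.locT
    locJ := h.locJ }

end Vale.Agent.P352.NG

end
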