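import Vale.Agent.P352.NG.Main
import Vale.Agent.P352.NG.Conv

/-!
# P352 NG: conformal invariance from null generators
-/

set_option linter.all false

noncomputable section

open MeasureTheory Filter Topology

namespace Vale.Agent.P352.NG

open GF (Ix V Fn Fld Theory)
open H246

variable {D : Type*} [NormedAddCommGroup D] [InnerProductSpace ℂ D]
variable {Q : GF.Theory D} {T : Ix → Ix → GF.Fld D} {J : Ix → GF.Fld D}
  {A : (V → V) → D → D} {G : V → D → D}

/-- **Conformal invariance** from null generators. -/
theorem confL (hT : Q.IsStress T) (hJ : IsVirial Q T J) (h : NG.NullGen Q T J A G)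
    (hP : ND.PCh Q T A) : N86.ConfInv Q T :=
  NG.confG hT hJ (NG.nullGen_nd hT hJ h hP) hP

end Vale.Agent.P352.NG

end
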