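import Vale.Agent.P352.NG.Cor
import Vale.Agent.P352.ND.V1

/-!
# P352 NG: linear combinations of null generators that commute with a field
-/

set_option linter.all false

noncomputable section

open MeasureTheory Filter Topology SchwartzMap Complex Set
open scoped SchwartzMap ComplexConjugate ContDiff LineDeriv

namespace Vale.Agent.P352.NG

open GF (Ix V Fn Fld Theory IsLor bas eta o sim bar)
open H246 H496 H755 H15
open ND (Kx Wsep wdg_opp isSim_tr locG_tr exists_bigW)
open NF (LocA)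

variable {D : Type*} [NormedAddCommGroup D] [InnerProductSpace ℂ D]
variable {Q : GF.Theory D} {T : Ix → Ix → GF.Fld D} {J : Ix → GF.Fld D}
  {A : (V → V) → D → D} {G C : V → D → D} {φ : GF.Fld D}

/-- the generators `G a` with the charges `C a`, and a hermitian field `φ` -/
structure Sgl (Q : GF.Theory D) (A : (V → V) → D → D) (G C : V → D → D) (φ : GF.Fld D) :
    Prop where
  symm : ∀ a v w, IsNull a → inner ℂ (G a v) w = inner ℂ v (G a w)
  tra : ∀ a x v, IsNull a → Q.U 1 GF.one x (G a (Q.U 1 GF.one (-x) v)) = G a v +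
    A (fun z => -(2 * GF.mdot a x) • z + (2 * GF.mdot x z) • a - (2 * GF.mdot a z) • x + cK a x) v -
      ((2 * GF.mdot a x : ℝ) : ℂ) • C a v
  fld : Q.fld φ
  herm : ∀ f v w, GF.IsTest f → inner ℂ (φ f v) w = inner ℂ v (φ (bar f) w)
  locG : ND.LocG Q G φ
  locA : LocA Q A φ
  comC : ∀ a f v, IsNull a → GF.IsTest f → C a (φ f v) = φ f (C a v)

/-- the commutator of a generator and a field -/
def CG (G : V → D → D) (φ : GF.Fld D) (a : V) (f : Fn) (v : D) : D := G a (φ f v) - φ f (G a v)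

section

variable (S : Sgl Q A G C φ)
include S

lemma Sgl.adjG {a : V} (ha : IsNull a) : Adj (G a) (G a) := fun v w => S.symm a v w ha

lemma Sgl.adjφ {f : Fn} (hf : GF.IsTest f) : Adj (φ f) (φ (bar f)) := fun v w => S.herm f v w hf

/-- **wedge locality** of the commutators -/
theorem Sgl.wloc {a : V} (ha : IsNull a) {B : GF.Fld D} (hB : Q.fld B) {f g : Fn}
    (hf : GF.IsTest f) (hfc : HasCompactSupport f) (hg : GF.IsTest g) (hgc : HasCompactSupport g)
    (hw : Wsep a f (tsupport g)) (v : D) : CG G φ a f (B g v) = B g (CG G φ a f v) := by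
  obtain ⟨B', hB', hadj⟩ := Q.adj B hB
  have hP : Adj (B g) (B' (bar g)) := fun v w => hadj g v w hg
  obtain ⟨c, y, hc, hac, hs⟩ := hw
  have hs' : (In (Wdg a c y) f ∧ In (Wdg c a y) g) ∨ (In (Wdg c a y) f ∧ In (Wdg a c y) g) := by
    rcases hs with ⟨h1, h2⟩ | ⟨h1, h2⟩
    · exact Or.inl ⟨⟨hf, hfc, h1⟩, ⟨hg, hgc, h2⟩⟩
    · exact Or.inr ⟨⟨hf, hfc, h1⟩, ⟨hg, hgc, h2⟩⟩
  have hsep : ∀ x ∈ tsupport f, ∀ z ∈ tsupport g, GF.mdot (x - z) (x - z) < 0 := by
    intro x hx z hz
    rcases hs with ⟨h1, h2⟩ | ⟨h1, h2⟩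
    · exact wdg_opp ha hc (h1 hx) (h2 hz)
    · exact wdg_opp hc ha (h1 hx) (h2 hz)
  have key : Kx Q G a y (φ f (B g v)) - φ f (Kx Q G a y (B g v)) =
      B g (Kx Q G a y (φ f v) - φ f (Kx Q G a y v)) :=
    locG_tr (fun a v w ha => S.symm a v w ha) S.fld S.locG hB ha hc hac rfl hs' v
  set X : V → V := fun z => -(2 * GF.mdot a y) • z +
    (2 * GF.mdot y z) • a - (2 * GF.mdot a z) • y + cK a y with hXd
  have hGx : ∀ u, Kx Q G a y u = G a u + A X u - ((2 * GF.mdot a y : ℝ) : ℂ) • C a u :=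
    fun u => S.tra a y u ha
  have hA : A X (φ f (B g v)) - φ f (A X (B g v)) = B g (A X (φ f v) - φ f (A X v)) :=
    S.locA _ X f (tsupport g) _ _ v (isSim_tr a y) hf hfc hsep
      (Al.fld B B' g _ _ hB hB' hadj ⟨hg, hgc, subset_rfl⟩ Al.one)
  have hC : ∀ u, C a (φ f u) = φ f (C a u) := fun u => S.comC a f u ha hf
  have p2 := (S.adjφ hf).add
  have p3 := (S.adjφ hf).smul
  have p1 : ∀ u w, φ f (u - w) = φ f u - φ f w := fun u w => by
    rw [sub_eq_add_neg, ← neg_one_smul ℂ w, p2, p3, neg_one_smul, ← sub_eq_add_neg]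
  have q1 : ∀ u w, B g (u - w) = B g u - B g w := fun u w => by
    rw [sub_eq_add_neg, ← neg_one_smul ℂ w, hP.add, hP.smul, neg_one_smul, ← sub_eq_add_neg]
  unfold CG
  simp only [hGx, p1, p2, p3, hC, q1, hP.add, hP.smul] at key hA ⊢
  have e : (G a (φ f (B g v)) - φ f (G a (B g v))) - (B g (G a (φ f v)) - B g (φ f (G a v))) =
      (B g (A X (φ f v)) - B g (φ f (A X v))) - (A X (φ f (B g v)) - φ f (A X (B g v))) := by
    have k2 := sub_eq_zero.2 key
    rw [← sub_eq_zero, ← k2]
    abel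
  rw [hA, sub_self, sub_eq_zero] at e
  exact e

/-- **Vanishing linear combinations of null vectors.** If the combination `∑ c_i G(n_i)`
annihilates the vacuum and the vectors `φ(f) Ω`, it commutes with `φ`. -/
theorem Sgl.comZ {ι : Type*} [Fintype ι] (n : ι → V) (c : ι → ℝ) (hn : ∀ i, IsNull (n i))
    (h0 : ∀ i, G (n i) Q.vac = 0)
    (h1 : ∀ f, GF.IsTest f → ∑ i, (c i : ℂ) • G (n i) (φ f Q.vac) = 0) {f : Fn}
    (hf : GF.IsTest f) (hfc : HasCompactSupport f) (v : D) :
    ∑ i, (c i : ℂ) • CG G φ (n i) f v = 0 := by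
  have key : ∀ F : Fn, GF.IsTest F → HasCompactSupport F → tsupport F = tsupport f →
      ∀ S0 : Set V, S0 ⊆ cc (tsupport f) →
      (∀ O ⊆ S0, ∀ f' : Fn, tsupport f' ⊆ tsupport f → ∀ i, Wsep (n i) f' O) →
      ∀ w, PW Q (MW S0) w → ∑ i, (c i : ℂ) • CG G φ (n i) F w = 0 := by
    intro F hF hFc hFt S0 hS0 hSep w hw
    have aφ := S.adjφ hF
    have p2 := aφ.add
    have p3 := aφ.smul
    have hadd : ∀ i u w, CG G φ (n i) F (u + w) = CG G φ (n i) F u + CG G φ (n i) F w := by
      intro i u w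
      unfold CG
      rw [p2, (S.adjG (hn i)).add, (S.adjG (hn i)).add, p2]
      abel
    have hsm : ∀ i (k : ℂ) w, CG G φ (n i) F (k • w) = k • CG G φ (n i) F w := by
      intro i k w
      unfold CG
      rw [p3, (S.adjG (hn i)).smul, (S.adjG (hn i)).smul, p3, smul_sub]
    induction hw with
    | vac =>
      have hz : φ F 0 = 0 := by simpa using p3 0 0
      have e : ∀ i, CG G φ (n i) F Q.vac = G (n i) (φ F Q.vac) := fun i => by
        unfold CG
        rw [h0, hz, sub_zero]
      simp only [e]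
      exact h1 F hF
    | add _ _ e1 e2 =>
      simp only [hadd, smul_add, Finset.sum_add_distrib]
      rw [e1, e2, add_zero]
    | smul k _ e1 =>
      simp only [hsm]
      have e : ∀ (u : ι → D), ∑ i, (c i : ℂ) • k • u i = k • ∑ i, (c i : ℂ) • u i := fun u => by
        rw [Finset.smul_sum]
        exact Finset.sum_congr rfl fun i _ => smul_comm _ _ _
      rw [e, e1, smul_zero]
    | @fld B g v hB hg _ e1 =>
      obtain ⟨B', hB', hadj⟩ := Q.adj B hB
      have hP : Adj (B (fl g)) (B' (bar (fl g))) := fun v w => hadj _ v w (isTest_fl g)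
      have hO : HasCompactSupport (fl g) := hasCompactSupport_fl hg.1
      have hOS : tsupport (fl g) ⊆ S0 := (In_fl.2 hg).2.2
      have e2 : ∀ i, CG G φ (n i) F (B (fl g) v) = B (fl g) (CG G φ (n i) F v) := fun i =>
        S.wloc (hn i) hB hF hFc (isTest_fl g) hO (hSep _ hOS F hFt.le i) v
      simp only [e2]
      have e3 : ∀ (u : ι → D), ∑ i, (c i : ℂ) • B (fl g) (u i) =
          B (fl g) (∑ i, (c i : ℂ) • u i) := by
        intro u
        have hz : B (fl g) 0 = 0 := by simpa using hP.smul 0 0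
        classical
        refine Finset.induction_on (Finset.univ : Finset ι) ?_ ?_
        · simp [hz]
        · intro i s hi ih
          rw [Finset.sum_insert hi, Finset.sum_insert hi, hP.add, hP.smul, ih]
      rw [e3, e1]
      simpa using hP.smul 0 0
  obtain ⟨S0, hS, hSK, hSep⟩ := exists_bigW (K := tsupport f) hfc n hn
  have hfb : GF.IsTest (bar f) := isTest_bar hf
  have hfbt : tsupport (bar f) = tsupport f := tsupport_bar f
  have hfbc : HasCompactSupport (bar f) := by
    rw [HasCompactSupport, hfbt]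
    exact hfc
  refine (dense_big (Q := Q) hS).eq_zero_of_inner_right ℂ fun w hw => ?_
  have k := key (bar f) hfb hfbc hfbt S0 hSK hSep w hw
  have e1 : ∀ i, inner ℂ w ((c i : ℂ) • CG G φ (n i) f v) =
      -inner ℂ ((c i : ℂ) • CG G φ (n i) (bar f) w) v := by
    intro i
    unfold CG
    have aφ := S.adjφ hf
    have aφ' : Adj (φ (bar f)) (φ f) := aφ.symm
    have aG := S.adjG (hn i)
    rw [inner_smul_right, inner_smul_left, inner_sub_right, inner_sub_left, ← aG w, ← aφ' _ (G (n i) v),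
      ← aφ', ← aG, Complex.conj_ofReal]
    ring
  rw [inner_sum, Finset.sum_congr rfl fun i _ => e1 i, Finset.sum_neg_distrib, ← sum_inner, k,
    inner_zero_left, neg_zero]

end

end Vale.Agent.P352.NG

end
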