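import Vale.Agent.P352.ND.N1
import Vale.Agent.P352.ND.C7c
import Vale.Agent.P352.ND.X3d
import Vale.Agent.P352.ND.A3c
import Vale.Agent.P352.G0.V2

/-!
# P352 NG: conformal invariance from local generators of null deformations, first part
-/

set_option linter.all false

noncomputable section

open MeasureTheory Filter Topology

namespace Vale.Agent.P352.NG

open GF (Ix V Fn Fld Theory IsLor bas eta o sim)
open H246 H496 H755 H15 H846 H746 N86 NC NF ND
open H121 (Cop)

variable {D : Type*} [NormedAddCommGroup D] [InnerProductSpace ℂ D]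
variable {Q : GF.Theory D} {T : Ix → Ix → GF.Fld D} {J : Ix → GF.Fld D}
  {A : (V → V) → D → D} {G : V → D → D}

section

variable (hT : Q.IsStress T) (hJ : IsVirial Q T J) (h : KS Q A G) (hl : LB Q G)
  (hP : PCh Q T A) (hLT : ∀ m n, NetL Q G (T m n))
include hT hJ h hl hP hLT

/-- the second derivatives vanish -/
theorem xi_ng {a b : V} (ha : IsNull a) (hb : IsNull b) (hab : GF.mdot a b = 1) (v : D) :
    Xi A G a b v = 0 :=
  xi_of_boost hT h ha hb hab (fun v => com_P hT h.toRep hP (NF.Xi_symm hT h ha b)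
    (fun m n f v hf hc => xi_T_of hT h hl hLT ha b
      (fun m n f hf _ => xi_single hT hJ h ha b m n f hf) m n f v hf hc)
    (NF.f4_Nf_sim a b) v) v

/-- the charge -/
theorem kc_ng {a b : V} (ha : IsNull a) (hb : IsNull b) (hab : GF.mdot a b = 1) :
    H731.KC Q A a (G a) (Cop Q A G a b) :=
  kc_of h (ck_of h hl) ha hb hab fun u t v =>
    sd_of_xi h hl ha hb hab (xi_ng hT hJ h hl hP hLT ha hb hab) u t v

variable (cT : ∀ {a : V} {C : D → D}, H731.KC Q A a (G a) C → ∀ m n f v, GF.IsTest f →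
  C (T m n f v) = T m n f (C v))
include cT

/-- the charge commutes with the Poincaré generators -/
theorem cA_ng {a b : V} (ha : IsNull a) (hb : IsNull b) (hab : GF.mdot a b = 1) {X : V → V}
    (hX : IsSim 0 X) (v : D) : Cop Q A G a b (A X v) = A X (Cop Q A G a b v) :=
  c_com hT h hP ha b (fun m n f v hf _ =>
    cT (kc_ng hT hJ h hl hP hLT ha hb hab) m n f v hf) hX v

/-- the charge does not depend on the null direction -/
theorem ceq_ng {a b a' b' : V} (ha : IsNull a) (hb : IsNull b) (hab : GF.mdot a b = 1)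
    (ha' : IsNull a') (hb' : IsNull b') (hab' : GF.mdot a' b' = 1) (v : D) :
    Cop Q A G a' b' v = Cop Q A G a b v :=
  c_eq h (ck_of h hl) ha hb hab
    (fun u t v => sd_of_xi h hl ha hb hab (xi_ng hT hJ h hl hP hLT ha hb hab) u t v) ha' hb' hab'
    (fun u t v => sd_of_xi h hl ha' hb' hab' (xi_ng hT hJ h hl hP hLT ha' hb' hab') u t v)
    (fun X v hX => cA_ng hT hJ h hl hP hLT cT ha hb hab hX v) v

/-- the charge with the choice of the second null vector -/
theorem cc_ng {a a' b' : V} (ha : IsNull a) (ha' : IsNull a') (hb' : IsNull b')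
    (hab' : GF.mdot a' b' = 1) (v : D) : Cc Q A G a v = Cop Q A G a' b' v := by
  obtain ⟨hb, hab⟩ := Classical.choose_spec (H755.exists_dual ha)
  have e : Cc Q A G a v = Cop Q A G a (Classical.choose (H755.exists_dual ha)) v := by
    simp only [Cc, dif_pos ha]
  rw [e]
  exact ceq_ng hT hJ h hl hP hLT cT ha' hb' hab' ha hb hab v

/-- the choice does not matter -/
theorem cc_eq' {a a' : V} (ha : IsNull a) (ha' : IsNull a') (v : D) :
    Cc Q A G a v = Cc Q A G a' v := by
  obtain ⟨b, hb, hab⟩ := H755.exists_dual ha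
  rw [cc_ng hT hJ h hl hP hLT cT ha ha hb hab, cc_ng hT hJ h hl hP hLT cT ha' ha hb hab]

/-- translations -/
theorem tra_ng (a x : V) (v : D) (ha : IsNull a) :
    Q.U 1 GF.one x (G a (Q.U 1 GF.one (-x) v)) = G a v +
      A (fun z => -(2 * GF.mdot a x) • z + (2 * GF.mdot x z) • a - (2 * GF.mdot a z) • x +
        cK a x) v - ((2 * GF.mdot a x : ℝ) : ℂ) • Cc Q A G a v := by
  obtain ⟨b, hb, hab⟩ := H755.exists_dual ha
  rw [cc_ng hT hJ h hl hP hLT cT ha ha hb hab]
  exact k_shift h (ck_of h hl) ha hb hab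
    (fun u t v => sd_of_xi h hl ha hb hab (xi_ng hT hJ h hl hP hLT ha hb hab) u t v) x v

theorem symC_ng (a : V) (v w : D) (ha : IsNull a) :
    inner ℂ (Cc Q A G a v) w = inner ℂ v (Cc Q A G a w) := by
  obtain ⟨b, hb, hab⟩ := H755.exists_dual ha
  rw [cc_ng hT hJ h hl hP hLT cT ha ha hb hab, cc_ng hT hJ h hl hP hLT cT ha ha hb hab]
  exact cop_symm h ha _ v w

theorem comA_ng (a : V) (r : ℝ) (X : V → V) (v : D) (ha : IsNull a) (hX : IsSim r X) :
    Cc Q A G a (A X v) = A X (Cc Q A G a v) :=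
  f7_comA (fun a v w ha => symC_ng hT hJ h hl hP hLT cT a v w ha) h.toRep
    (fun a s v ha hs' => f7_dil h.toRep h.cov
      (fun a x v ha => tra_ng hT hJ h hl hP hLT cT a x v ha) a s v ha hs') ha
    (fun X v hX => by
      obtain ⟨b, hb, hab⟩ := H755.exists_dual ha
      rw [cc_ng hT hJ h hl hP hLT cT ha ha hb hab, cc_ng hT hJ h hl hP hLT cT ha ha hb hab]
      exact cA_ng hT hJ h hl hP hLT cT ha hb hab hX v) hX v

theorem vac_ng (a : V) (ha : IsNull a) : Cc Q A G a Q.vac = 0 := by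
  obtain ⟨b, hb, hab⟩ := H755.exists_dual ha
  rw [cc_ng hT hJ h hl hP hLT cT ha ha hb hab]
  exact cop_vac h ha _ (f7_K_vac h.cov ha)

variable (cJ : ∀ {a : V} {C : D → D}, H731.KC Q A a (G a) C → ∀ m f v, GF.IsTest f →
  C (J m f v) = J m f (C v))
include cJ

theorem comJ_ng (a : V) (m : Ix) (f : Fn) (v : D) (ha : IsNull a) (hf : GF.IsTest f) :
    Cc Q A G a (J m f v) = J m f (Cc Q A G a v) := by
  obtain ⟨b, hb, hab⟩ := H755.exists_dual ha
  rw [cc_ng hT hJ h hl hP hLT cT ha ha hb hab, cc_ng hT hJ h hl hP hLT cT ha ha hb hab]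
  exact cJ (kc_ng hT hJ h hl hP hLT ha hb hab) m f v hf

/-- **Special conformal generators up to a neutral charge.** -/
theorem ngen_ng
    (kJ : ∀ a b m f, IsNull a → IsNull b → GF.IsTest f → Cc Q A G a (G b (J m f Q.vac)) = 0)
    (klin : ∀ (k : ℕ) (n : Fin k → V) (c : Fin k → ℝ), (∀ i, IsNull (n i)) →
      ∑ i, c i • n i = 0 → ∀ m f, GF.IsTest f → ∑ i, (c i : ℂ) • G (n i) (J m f Q.vac) = 0) :
    G0.NGen Q J A G (Cc Q A G) where
  toRep := h.toRep
  symm := h.symm
  cov := h.cov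
  tra := fun a x v ha => tra_ng hT hJ h hl hP hLT cT a x v ha
  comJ := fun a m f v ha hf => comJ_ng hT hJ h hl hP hLT cT cJ a m f v ha hf
  kJ := kJ
  klin := klin
  comA := fun a r X v ha hX => comA_ng hT hJ h hl hP hLT cT a r X v ha hX
  vac := fun a ha => vac_ng hT hJ h hl hP hLT cT a ha
  symC := fun a v w ha => symC_ng hT hJ h hl hP hLT cT a v w ha

end

end Vale.Agent.P352.NG

end
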