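import Vale.Agent.P352.NG.Asm
import Vale.Agent.P352.ND.G0e

/-!
# P352 NG: conformal invariance from local generators of null deformations, second part
-/

set_option linter.all false

noncomputable section

open MeasureTheory Filter Topology

namespace Vale.Agent.P352.NG

open GF (Ix V Fn Fld Theory IsLor bas eta o sim)
open H246 H496 H755 H15 H846 H746 N86 NC NF ND
open H121 (Cop)

variable {D : Type*} [NormedAddCommGroup D] [InnerProductSpace ℂ D]
variable {Q : GF.Theory D} {T : Ix → Ix → GF.Fld D} {J : Ix → GF.Fld D}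
  {A : (V → V) → D → D} {G : V → D → D}

section

variable (hT : Q.IsStress T) (hJ : IsVirial Q T J) (h : KS Q A G) (hl : LB Q G)
  (hP : PCh Q T A) (hLT : ∀ m n, NetL Q G (T m n))
  (cT : ∀ {a : V} {C : D → D}, H731.KC Q A a (G a) C → ∀ m n f v, GF.IsTest f →
    C (T m n f v) = T m n f (C v))
  (cJ : ∀ {a : V} {C : D → D}, H731.KC Q A a (G a) C → ∀ m f v, GF.IsTest f →
    C (J m f v) = J m f (C v))
include hT hJ h hl hP hLT cT cJ

theorem kJ_ng (a b : V) (m : Ix) (f : Fn) (ha : IsNull a) (hb : IsNull b) (hf : GF.IsTest f) :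
    Cc Q A G a (G b (J m f Q.vac)) = 0 := by
  obtain ⟨b', hb', hbb'⟩ := H755.exists_dual hb
  have k := kc_ng hT hJ h hl hP hLT hb hb' hbb'
  have e : ∀ v, Cop Q A G b b' v = Cc Q A G b v := fun v =>
    (cc_ng hT hJ h hl hP hLT cT hb hb hb' hbb' v).symm
  rw [cc_eq' hT hJ h hl hP hLT cT ha hb, ← e]
  refine kJ0 k (fun r X v hX => ?_) hJ m hf ?_
  · rw [e, e]
    exact comA_ng hT hJ h hl hP hLT cT b r X v hb hX
  · rw [e, comJ_ng hT hJ h hl hP hLT cT cJ b m f _ hb hf, vac_ng hT hJ h hl hP hLT cT b hb]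
    have h0 := H746.fld_smul (Q.bose_fld _ (hJ.bose m)) hf 0 (0 : D)
    rwa [zero_smul, zero_smul] at h0

theorem klin_ng (k : ℕ) (n : Fin k → V) (c : Fin k → ℝ) (hn : ∀ i, IsNull (n i))
    (hc : ∑ i, c i • n i = 0) (m : Ix) (f : Fn) (hf : GF.IsTest f) :
    ∑ i, (c i : ℂ) • G (n i) (J m f Q.vac) = 0 := by
  rcases Nat.eq_zero_or_pos k with rfl | hk
  · simp
  · have ha := hn ⟨0, hk⟩
    refine klin0 (K := G) (C := Cc Q A G (n ⟨0, hk⟩)) n c hc (fun i => ?_) h.toRep hJ m hf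
    obtain ⟨b', hb', hbb'⟩ := H755.exists_dual (hn i)
    have e : Cc Q A G (n ⟨0, hk⟩) = Cop Q A G (n i) b' := funext fun v =>
      cc_ng hT hJ h hl hP hLT cT ha (hn i) hb' hbb' v
    rw [e]
    exact kc_ng hT hJ h hl hP hLT (hn i) hb' hbb'

/-- **Special conformal generators up to a neutral charge.** -/
theorem ngen : G0.NGen Q J A G (Cc Q A G) :=
  ngen_ng hT hJ h hl hP hLT cT cJ (kJ_ng hT hJ h hl hP hLT cT cJ)
    fun k n c hn hc m f hf => klin_ng hT hJ h hl hP hLT cT cJ k n c hn hc m f hf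

end

end Vale.Agent.P352.NG

end
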