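import Vale.Agent.P352.NG.Defs2
import Vale.Agent.P352.NG.Fin
import Vale.Agent.P352.ND.NGm
import Vale.Agent.P352.ND.NGn

/-!
# P352 NG: consequences and examples of null generators
-/

set_option linter.all false

noncomputable section

open MeasureTheory Filter Topology

namespace Vale.Agent.P352.NG

open GF (Ix V Fn Fld Theory IsLor bas eta o sim)
open H246 H496 H755 H15 H846 H746 N86 NC NF
open H121 (Cop)

variable {D : Type*} [NormedAddCommGroup D] [InnerProductSpace ℂ D]
variable {Q : GF.Theory D} {T : Ix → Ix → GF.Fld D} {J : Ix → GF.Fld D}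
  {A : (V → V) → D → D} {G K : V → D → D} {H : D → D} {alg : Set V → Set (D → D)}
  {S : V → ℝ → D → D}

theorem of_nd (h : ND.NullGen Q T J A G) : NG.NullGen Q T J A G :=
  { toKS := h.toKS
    locT := h.locT
    locJ := h.locJ }

/-- the second moments of the null energy density are null generators -/
theorem of_mom (hT : Q.IsStress T) (hJ : IsVirial Q T J) (h : NullMom Q T A K) :
    NG.NullGen Q T J A K := of_nd (ND.nullGen_mom hT hJ h)

/-- the generators of the null deformations of a net are null generators -/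
theorem of_net (hT : Q.IsStress T) (hJ : IsVirial Q T J) (N : CNet Q H alg S)
    (Gg : Gnr Q alg S G) (R : H15.Rep Q A) : NG.NullGen Q T J A G :=
  of_nd (ND.nullGen_net hT hJ N Gg R)

/-- local action implies locality with respect to null hyperplanes -/
theorem locG_of_locF {φ : GF.Fld D} (h : LocF Q K φ) : LocG Q K φ := by
  intro B a c y f g v hB ha hc hac hy hs
  refine h a B f g v ha hB ?_ ?_ ?_
  · rcases hs with hs | hs
    · exact ⟨hs.1.1, hs.1.2.1, fun z _ => Set.mem_univ z⟩
    · exact ⟨hs.1.1, hs.1.2.1, fun z _ => Set.mem_univ z⟩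
  · rcases hs with hs | hs
    · exact ⟨hs.2.1, hs.2.2.1, fun z _ => Set.mem_univ z⟩
    · exact ⟨hs.2.1, hs.2.2.1, fun z _ => Set.mem_univ z⟩
  · intro x hx z hz
    rcases hs with ⟨h1, h2⟩ | ⟨h1, h2⟩
    · exact ND.wdg_opp ha hc (h1.2.2 hx) (h2.2.2 hz)
    · exact ND.wdg_opp hc ha (h1.2.2 hx) (h2.2.2 hz)

/-- **Special conformal generators that act locally on `T` and `J` are null generators.** -/
theorem of_conf (h : ConfGen Q A K) (hT : ∀ m n, LocF Q K (T m n)) (hJ : ∀ m, LocF Q K (J m)) :
    NG.NullGen Q T J A K where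
  toRep := h.toRep
  symm := h.symm
  cov := h.cov
  tra a x v ha hx := h.tra a x v ha
  locT m n := locG_of_locF (hT m n)
  locJ m := locG_of_locF (hJ m)

section

variable (hT : Q.IsStress T) (hJ : IsVirial Q T J) (h : NG.NullGen Q T J A G)
  (hP : ND.PCh Q T A)
include hT hJ h hP

/-- the charge is neutral -/
theorem neutral {a : V} (ha : IsNull a) : Neutral Q T J A (ND.Cc Q A G a) := by
  have h1 := nullGen_nd hT hJ h hP
  have hg := ngen_null hT hJ h1 hP
  obtain ⟨b, hb, hab⟩ := H755.exists_dual ha
  have cT : ∀ {a : V} {C : D → D}, H731.KC Q A a (G a) C → ∀ m n f v, GF.IsTest f →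
      C (T m n f v) = T m n f (C v) := fun k m n f v hf => ND.c6_T' hT k m n (h1.netT hT m n) hf v
  have e : ∀ v, ND.Cc Q A G a v = Cop Q A G a b v := fun v =>
    cc_ng hT hJ h1.toKS h1.bdd hP (h1.netT hT) cT ha ha hb hab v
  exact
    { symm := fun v w => hg.symC a v w ha
      vac := hg.vac a ha
      comT := fun m n f v hf => by
        rw [e, e]
        exact cT (kc_ng hT hJ h1.toKS h1.bdd hP (h1.netT hT) ha hb hab) m n f v hf
      comJ := fun m f v hf => hg.comJ a m f v ha hf
      comA := fun r X v hX => hg.comA a r X v ha hX }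

/-- **The null generators are special conformal generators up to one neutral charge.** -/
theorem exists_neutral : ∃ C : D → D, Neutral Q T J A C ∧ ∀ a x v, IsNull a →
    Q.U 1 GF.one x (G a (Q.U 1 GF.one (-x) v)) = G a v +
      A (fun z => -(2 * GF.mdot a x) • z + (2 * GF.mdot x z) • a - (2 * GF.mdot a z) • x +
        cK a x) v - ((2 * GF.mdot a x : ℝ) : ℂ) • C v := by
  obtain ⟨a0, ha0⟩ : ∃ a : V, IsNull a := ⟨H15.a0, H15.npr0.1⟩
  have h1 := nullGen_nd hT hJ h hP
  have hg := ngen_null hT hJ h1 hP
  have cT : ∀ {a : V} {C : D → D}, H731.KC Q A a (G a) C → ∀ m n f v, GF.IsTest f →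
      C (T m n f v) = T m n f (C v) := fun k m n f v hf => ND.c6_T' hT k m n (h1.netT hT m n) hf v
  refine ⟨ND.Cc Q A G a0, neutral hT hJ h hP ha0, fun a x v ha => ?_⟩
  rw [hg.tra a x v ha, cc_eq' hT hJ h1.toKS h1.bdd hP (h1.netT hT) cT ha ha0]

/-- If the vacuum is cyclic for the stress tensor and the virial current, the null generators are
special conformal generators. -/
theorem confGen_of (hc : Cyc Q T J) : ConfGen Q A G := by
  obtain ⟨C, hC, ht⟩ := exists_neutral hT hJ h hP
  have hadd : ∀ v w, C (v + w) = C v + C w := fun v w => ext_inner_right ℂ fun z => by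
    rw [inner_add_left, hC.symm, hC.symm, hC.symm, inner_add_left]
  have hsm : ∀ (c : ℂ) v, C (c • v) = c • C v := fun c v => ext_inner_right ℂ fun z => by
    rw [inner_smul_left, hC.symm, hC.symm, inner_smul_left]
  have hz : C 0 = 0 := by simpa using hsm 0 0
  let W : Submodule ℂ D :=
    { carrier := {v | C v = 0}
      add_mem' := fun {v w} hv hw => by
        show C (v + w) = 0
        rw [hadd, show C v = 0 from hv, show C w = 0 from hw, add_zero]
      zero_mem' := hz
      smul_mem' := fun c v hv => by
        show C (c • v) = 0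
        rw [hsm, show C v = 0 from hv, smul_zero] }
  have hd : Dense (W : Set D) := hc W hC.vac
    (fun m n f v hf hv => by
      show C (T m n f v) = 0
      rw [hC.comT m n f v hf, show C v = 0 from hv]
      have := Vale.Agent.P352.H746.fld_smul (Q.bose_fld _ (hT.bose m n)) hf 0 (0 : D)
      rwa [zero_smul, zero_smul] at this)
    (fun m f v hf hv => by
      show C (J m f v) = 0
      rw [hC.comJ m f v hf, show C v = 0 from hv]
      have := Vale.Agent.P352.H746.fld_smul (Q.bose_fld _ (hJ.bose m)) hf 0 (0 : D)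
      rwa [zero_smul, zero_smul] at this)
  have h0 : ∀ w, C w = 0 := by
    intro w
    refine hd.eq_zero_of_inner_left ℂ fun v hv => ?_
    rw [hC.symm, show C v = 0 from hv, inner_zero_right]
  exact
    { toRep := h.toRep
      symm := h.symm
      cov := h.cov
      tra := fun a x v ha => by rw [ht a x v ha, h0, smul_zero, sub_zero] }

end

end Vale.Agent.P352.NG

end
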