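import Vale.Agent.P352.NF.Defs
import Vale.Agent.P352.ND.Defs

open MeasureTheory Filter Topology

namespace Vale.Agent.P352.NG

open GF H246 H496 H755 H15

noncomputable section

variable {D : Type*} [NormedAddCommGroup D] [InnerProductSpace ℂ D]

/-- Locality of the operators `G a` with respect to the null hyperplane `a·z = 0`: the commutator
`[G_a, φ(f)]` with the field `φ`, smeared in a wedge whose edge lies in this hyperplane, commutes
with the fields smeared in the opposite wedge. -/
def LocG (Q : Theory D) (G : V → D → D) (φ : Fld D) : Prop :=
  ∀ (B : Fld D) (a c y : V) (f g : Fn) (v : D), Q.fld B → IsNull a → IsNull c →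
    0 < GF.mdot a c → GF.mdot a y = 0 →
    ((In (Wdg a c y) f ∧ In (Wdg c a y) g) ∨ (In (Wdg c a y) f ∧ In (Wdg a c y) g)) →
    G a (φ f (B g v)) - φ f (G a (B g v)) = B g (G a (φ f v) - φ f (G a v))

/-- **Null generators.** The symmetric operators `G a`, `a` null, transform under the Lorentz
transformations, the dilations and the translations along the null hyperplane `a·z = 0` like the
special conformal generators (`KS`), and their commutators with the fields `T m n` and `J m` are
local with respect to this hyperplane. -/
structure NullGen (Q : Theory D) (T : Ix → Ix → Fld D) (J : Ix → Fld D)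
    (A : (V → V) → D → D) (G : V → D → D) : Prop extends NF.KS Q A G where
  locT : ∀ m n, LocG Q G (T m n)
  locJ : ∀ m, LocG Q G (J m)

end

end Vale.Agent.P352.NG
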