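import Vale.Agent.P352.NG.Defs

open MeasureTheory Filter Topology

namespace Vale.Agent.P352.NG

open GF H246 H496 H755 H15

noncomputable section

variable {D : Type*} [NormedAddCommGroup D] [InnerProductSpace ℂ D]

/-- The operators `K a` act locally on the field `φ`: the commutator `[K_a, φ(f)]` commutes with
the fields smeared at spacelike distance from `f`. -/
def LocF (Q : Theory D) (K : V → D → D) (φ : Fld D) : Prop :=
  ∀ (a : V) (B : Fld D) (f g : Fn) (v : D), IsNull a → Q.fld B → In Set.univ f → In Set.univ g →
    Sep f g → K a (φ f (B g v)) - φ f (K a (B g v)) = B g (K a (φ f v) - φ f (K a v))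

/-- The vacuum is cyclic for the stress tensor and the virial current. -/
def Cyc (Q : Theory D) (T : Ix → Ix → Fld D) (J : Ix → Fld D) : Prop :=
  ∀ S : Submodule ℂ D, Q.vac ∈ S → (∀ m n f v, GF.IsTest f → v ∈ S → T m n f v ∈ S) →
    (∀ m f v, GF.IsTest f → v ∈ S → J m f v ∈ S) → Dense (S : Set D)

/-- `C` is a neutral charge: symmetric, zero on the vacuum, and it commutes with the stress
tensor, the virial current and the generators of the similitudes. -/
structure Neutral (Q : Theory D) (T : Ix → Ix → Fld D) (J : Ix → Fld D)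
    (A : (V → V) → D → D) (C : D → D) : Prop where
  symm : ∀ v w, inner ℂ (C v) w = inner ℂ v (C w)
  vac : C Q.vac = 0
  comT : ∀ m n f v, GF.IsTest f → C (T m n f v) = T m n f (C v)
  comJ : ∀ m f v, GF.IsTest f → C (J m f v) = J m f (C v)
  comA : ∀ r X v, IsSim r X → C (A X v) = A X (C v)

/-- The symmetric operators `K a` obey the commutation relations of special conformal generators
with the similitudes, up to the charge `C`: `U(x) K_a U(-x) - K_a + 2 (a·x) C` is the generator
whose velocity field is the difference of the conformal Killing vector fields `cK a` centred at `x`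
and at the origin. -/
structure ConfC (Q : Theory D) (A : (V → V) → D → D) (K : V → D → D) (C : D → D) :
    Prop extends Rep Q A where
  symm : ∀ a v w, IsNull a → inner ℂ (K a v) w = inner ℂ v (K a w)
  cov : ∀ s L r a b v, 0 < s → 0 < r → IsLor L → IsNull a → IsNull b → sim 1 L 0 a = r • b →
    Q.U s L 0 (K a v) = ((r / s : ℝ) : ℂ) • K b (Q.U s L 0 v)
  tra : ∀ a x v, IsNull a → Q.U 1 GF.one x (K a (Q.U 1 GF.one (-x) v)) = K a v +
    A (fun z => -(2 * GF.mdot a x) • z + (2 * GF.mdot x z) • a - (2 * GF.mdot a z) • x + cK a x) v -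
      ((2 * GF.mdot a x : ℝ) : ℂ) • C v

end

end Vale.Agent.P352.NG
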