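import Vale.Agent.P352.NG.Loc1

/-!
# P352 NG: the null generators act locally
-/

set_option linter.all false

noncomputable section

open MeasureTheory Filter Topology SchwartzMap Complex Set
open scoped SchwartzMap ComplexConjugate ContDiff LineDeriv

namespace Vale.Agent.P352.NG

open GF (Ix V Fn Fld Theory IsLor bas eta o sim bar)
open H246 H496 H755 H15
open ND (Kx Wsep wdg_opp isSim_tr locG_tr exists_bigW mdot_causal)
open NF (LocA)

variable {D : Type*} [NormedAddCommGroup D] [InnerProductSpace ℂ D]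
variable {Q : GF.Theory D} {T : Ix → Ix → GF.Fld D} {J : Ix → GF.Fld D}
  {A : (V → V) → D → D} {G C : V → D → D} {φ : GF.Fld D}

/-! ### null vectors -/

lemma null_fut {n c : V} (hn : IsNull n) (hc : GF.mdot c c = 0) (h : 0 < GF.mdot n c) :
    IsNull c := by
  refine ⟨hc, ?_⟩
  by_contra h0
  rw [not_lt] at h0
  have e : GF.mdot (-c) (-c) = 0 := by
    have h1 : (-c : V) = (-1 : ℝ) • c := by rw [neg_one_smul]
    rw [h1, md_smul, md_smul_l, hc]
    ring
  have h2 := mdot_causal hn (d := -c) (by rw [e]) (by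
    have : (-c : V) 0 = -(c 0) := rfl
    rw [this]
    have h3 : c 0 ≤ 0 := h0
    linarith)
  have h3 : GF.mdot n (-c) = -GF.mdot n c := by
    have h1 : (-c : V) = (-1 : ℝ) • c := by rw [neg_one_smul]
    rw [h1, md_smul]
    ring
  linarith

/-- the reflection of a null vector at a spacelike vector -/
lemma exists_opp {n z : V} (hn : IsNull n) (hz : GF.mdot z z < 0) (h : GF.mdot n z ≠ 0) :
    ∃ c, IsNull c ∧ GF.mdot c z = -GF.mdot n z ∧ 0 < GF.mdot n c := by
  set t : ℝ := 2 * GF.mdot n z / GF.mdot z z with ht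
  have hz0 : GF.mdot z z ≠ 0 := hz.ne
  have e1 : t * GF.mdot z z = 2 * GF.mdot n z := by
    rw [ht]
    field_simp
  have e2 : GF.mdot n (n - t • z) = -(t * GF.mdot n z) := by
    rw [md_sub, md_smul, hn.1]
    ring
  have e3 : GF.mdot (n - t • z) (n - t • z) = 0 := by
    rw [md_sub_l, e2, md_smul_l, md_sub, md_smul, md_comm z n]
    linear_combination t * e1
  have e4 : 0 < GF.mdot n (n - t • z) := by
    rw [e2]
    have h1 : t * GF.mdot n z = 2 * GF.mdot n z ^ 2 / GF.mdot z z := by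
      rw [ht]
      ring
    rw [h1, ← neg_div_neg_eq, neg_div, neg_neg]
    exact div_pos (by positivity) (by linarith)
  refine ⟨n - t • z, null_fut hn e3 e4, ?_, e4⟩
  rw [md_sub_l, md_smul_l]
  linarith

/-- neighbourhoods of two spacelike separated points in opposite wedges -/
lemma wsep_nhd {n x y : V} (hn : IsNull n) (hz : GF.mdot (x - y) (x - y) < 0)
    (h : GF.mdot n (x - y) ≠ 0) : ∃ U W : Set V, IsOpen (MW U) ∧ IsOpen (MW W) ∧ x ∈ U ∧ y ∈ W ∧
      ∀ (f : Fn) (O : Set V), tsupport f ⊆ U → O ⊆ W → Wsep n f O := by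
  obtain ⟨c, hc, hcz, hnc⟩ := exists_opp hn hz h
  set p : V := (1 / 2 : ℝ) • (x + y) with hp
  have ex : x - p = (1 / 2 : ℝ) • (x - y) := by
    rw [hp]
    module
  have ey : y - p = (-(1 / 2) : ℝ) • (x - y) := by
    rw [hp]
    module
  rcases lt_or_gt_of_ne h with h1 | h1
  · refine ⟨Wdg n c p, Wdg c n p, isOpen_MW_Wdg n c p, isOpen_MW_Wdg c n p, ⟨?_, ?_⟩, ⟨?_, ?_⟩,
      fun f O hf hO => ⟨c, p, hc, hnc, Or.inl ⟨hf, hO⟩⟩⟩
    · rw [ex, md_smul]; linarith
    · rw [ex, md_smul, hcz]; linarith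
    · rw [ey, md_smul, hcz]; linarith
    · rw [ey, md_smul]; linarith
  · refine ⟨Wdg c n p, Wdg n c p, isOpen_MW_Wdg c n p, isOpen_MW_Wdg n c p, ⟨?_, ?_⟩, ⟨?_, ?_⟩,
      fun f O hf hO => ⟨c, p, hc, hnc, Or.inr ⟨hf, hO⟩⟩⟩
    · rw [ex, md_smul, hcz]; linarith
    · rw [ex, md_smul]; linarith
    · rw [ey, md_smul]; linarith
    · rw [ey, md_smul, hcz]; linarith

/-- a null vector `b` with `a·b = 1` that is not orthogonal to `z` -/
lemma exists_b {a z : V} (ha : IsNull a) (hz : GF.mdot z z < 0) (haz : GF.mdot a z = 0) :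
    ∃ b, IsNull b ∧ GF.mdot a b = 1 ∧ GF.mdot b z ≠ 0 := by
  obtain ⟨b0, hb0, hab0⟩ := H755.exists_dual ha
  by_cases h : GF.mdot b0 z = 0
  · set b : V := b0 + z + (-(GF.mdot z z) / 2) • a with hb
    have e1 : GF.mdot a b = 1 := by
      rw [hb, md_add, md_add, md_smul, hab0, haz, ha.1]
      ring
    have e2 : GF.mdot b b = 0 := by
      rw [hb]
      simp only [md_add, md_smul, md_add_l, md_smul_l]
      rw [hb0.1, ha.1, h, haz, hab0, md_comm z b0, md_comm z a, md_comm b0 a, h, haz, hab0]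
      ring
    refine ⟨b, null_fut ha e2 (by rw [e1]; exact one_pos), e1, ?_⟩
    rw [hb, md_add_l, md_add_l, md_smul_l, h, haz]
    intro h0
    linarith
  · exact ⟨b0, hb0, hab0, h⟩

/-- a null vector orthogonal to `z` is a linear combination of null vectors that are not -/
lemma exists_comb {a z : V} (ha : IsNull a) (hz : GF.mdot z z < 0) (haz : GF.mdot a z = 0) :
    ∃ (t : ℝ) (n1 n2 b : V), t ≠ 0 ∧ IsNull n1 ∧ IsNull n2 ∧ IsNull b ∧ GF.mdot n1 z ≠ 0 ∧
      GF.mdot n2 z ≠ 0 ∧ GF.mdot b z ≠ 0 ∧ t • a - n1 - n2 + (2 : ℝ) • b = 0 := by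
  obtain ⟨b, hb, hab, hbz⟩ := exists_b ha hz haz
  set β : ℝ := GF.mdot b z with hβ
  set ρ : ℝ := -GF.mdot z z with hρ
  have hρ0 : 0 < ρ := by rw [hρ]; linarith
  have hzz : GF.mdot z z = -ρ := by rw [hρ]; ring
  set s : ℝ := β / (2 * ρ) with hs
  have hsρ : s * ρ = β / 2 := by
    rw [hs]
    field_simp
  have hs0 : s ≠ 0 := div_ne_zero hbz (by positivity)
  have hba : GF.mdot b a = 1 := by rw [md_comm]; exact hab
  have hza : GF.mdot z a = 0 := by rw [md_comm]; exact haz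
  have hzb : GF.mdot z b = β := by rw [md_comm, hβ]
  have gen : ∀ s : ℝ, GF.mdot a (b + s • (z - β • a) + (s ^ 2 * ρ / 2) • a) = 1 ∧
      GF.mdot (b + s • (z - β • a) + (s ^ 2 * ρ / 2) • a)
        (b + s • (z - β • a) + (s ^ 2 * ρ / 2) • a) = 0 ∧
      GF.mdot (b + s • (z - β • a) + (s ^ 2 * ρ / 2) • a) z = β - s * ρ := by
    intro s
    refine ⟨?_, ?_, ?_⟩
    · simp only [md_add, md_smul, md_sub]
      rw [hab, haz, ha.1]
      ring
    · simp only [md_add, md_smul, md_sub, md_add_l, md_smul_l, md_sub_l]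
      rw [hb.1, ha.1, hab, haz, hba, hza, hzb, hzz, ← hβ]
      ring
    · simp only [md_add_l, md_smul_l, md_sub_l]
      rw [haz, hzz, ← hβ]
      ring
  obtain ⟨g1, g2, g3⟩ := gen s
  obtain ⟨k1, k2, k3⟩ := gen (-s)
  refine ⟨s ^ 2 * ρ, _, _, b, by positivity, null_fut ha g2 (by rw [g1]; exact one_pos),
    null_fut ha k2 (by rw [k1]; exact one_pos), hb, ?_, ?_, hbz, ?_⟩
  · rw [g3, hsρ]
    intro h0
    exact hbz (by linarith)
  · rw [k3, neg_mul, hsρ]
    intro h0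
    exact hbz (by linarith)
  · rw [neg_sq]
    module

section

variable (S : Sgl Q A G C φ)
  (h0 : ∀ a, IsNull a → G a Q.vac = 0)
  (h1 : ∀ (n : Fin 4 → V) (c : Fin 4 → ℝ), (∀ i, IsNull (n i)) → ∑ i, c i • n i = 0 →
    ∀ f, GF.IsTest f → ∑ i, (c i : ℂ) • G (n i) (φ f Q.vac) = 0)
include S h0 h1

/-- locality near two spacelike separated points -/
theorem Sgl.near {a : V} (ha : IsNull a) {B : GF.Fld D} (hB : Q.fld B) (v : D) {x y : V}
    (hz : GF.mdot (x - y) (x - y) < 0) : ∃ U W : Set V, IsOpen (MW U) ∧ IsOpen (MW W) ∧ x ∈ U ∧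
      y ∈ W ∧ ∀ f g : Fn, In U f → In W g → CG G φ a f (B g v) = B g (CG G φ a f v) := by
  by_cases haz : GF.mdot a (x - y) = 0
  · obtain ⟨t, n1, n2, b, ht, hn1, hn2, hb, z1, z2, z3, hsum⟩ := exists_comb ha hz haz
    obtain ⟨U1, W1, oU1, oW1, x1, y1, s1⟩ := wsep_nhd hn1 hz z1
    obtain ⟨U2, W2, oU2, oW2, x2, y2, s2⟩ := wsep_nhd hn2 hz z2
    obtain ⟨U3, W3, oU3, oW3, x3, y3, s3⟩ := wsep_nhd hb hz z3
    refine ⟨U1 ∩ U2 ∩ U3, W1 ∩ W2 ∩ W3, (oU1.inter oU2).inter oU3, (oW1.inter oW2).inter oW3,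
      ⟨⟨x1, x2⟩, x3⟩, ⟨⟨y1, y2⟩, y3⟩, fun f g hf hg => ?_⟩
    have c1 := fun v => S.wloc hn1 hB hf.1 hf.2.1 hg.1 hg.2.1
      (s1 f _ (fun z hz => (hf.2.2 hz).1.1) (fun z hz => (hg.2.2 hz).1.1)) v
    have c2 := fun v => S.wloc hn2 hB hf.1 hf.2.1 hg.1 hg.2.1
      (s2 f _ (fun z hz => (hf.2.2 hz).1.2) (fun z hz => (hg.2.2 hz).1.2)) v
    have c3 := fun v => S.wloc hb hB hf.1 hf.2.1 hg.1 hg.2.1
      (s3 f _ (fun z hz => (hf.2.2 hz).2) (fun z hz => (hg.2.2 hz).2)) v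
    have key : ∀ w, (t : ℂ) • CG G φ a f w = CG G φ n1 f w + CG G φ n2 f w -
        (2 : ℂ) • CG G φ b f w := by
      intro w
      have k := S.comZ (![a, n1, n2, b]) (![t, -1, -1, 2])
        (by
          intro i
          fin_cases i
          · exact ha
          · exact hn1
          · exact hn2
          · exact hb)
        (by
          intro i
          fin_cases i
          · exact h0 _ ha
          · exact h0 _ hn1
          · exact h0 _ hn2
          · exact h0 _ hb)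
        (h1 _ _ (by
          intro i
          fin_cases i
          · exact ha
          · exact hn1
          · exact hn2
          · exact hb) (by
          simp only [Fin.sum_univ_four, Matrix.cons_val_zero, Matrix.cons_val_one,
            Matrix.cons_val]
          rw [← hsum]
          module)) hf.1 hf.2.1 w
      simp only [Fin.sum_univ_four, Matrix.cons_val_zero, Matrix.cons_val_one,
        Matrix.cons_val] at k
      push_cast at k
      rw [← sub_eq_zero, ← k]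
      module
    obtain ⟨B', hB', hadj⟩ := Q.adj B hB
    have hP : Adj (B g) (B' (bar g)) := fun v w => hadj g v w hg.1
    have q1 : ∀ u w, B g (u - w) = B g u - B g w := fun u w => by
      rw [sub_eq_add_neg, ← neg_one_smul ℂ w, hP.add, hP.smul, neg_one_smul, ← sub_eq_add_neg]
    have e : (t : ℂ) • CG G φ a f (B g v) = (t : ℂ) • B g (CG G φ a f v) := by
      rw [key, ← hP.smul, key, c1, c2, c3, q1, hP.add, hP.smul]
    have ht' : (t : ℂ) ≠ 0 := by exact_mod_cast ht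
    exact smul_right_injective D ht' e
  · obtain ⟨U, W, oU, oW, hx, hy, s⟩ := wsep_nhd ha hz haz
    exact ⟨U, W, oU, oW, hx, hy, fun f g hf hg => S.wloc ha hB hf.1 hf.2.1 hg.1 hg.2.1
      (s f _ hf.2.2 hg.2.2) v⟩

/-- **The null generators act locally** on the field. -/
theorem Sgl.locF : LocF Q G φ := by
  intro a B f g v ha hB hf hg hs
  show CG G φ a f (B g v) = B g (CG G φ a f v)
  obtain ⟨F, rfl, hF⟩ := exists_In hf
  obtain ⟨g, rfl, hG⟩ := exists_In hg
  obtain ⟨B', hB', hadj⟩ := Q.adj B hB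
  have RB : H496.RelF Q B B' := H496.relF_fld hB hB' hadj
  have Rφ : H496.RelF Q φ φ := H496.relF_fld S.fld S.fld S.herm
  have aG := S.adjG ha
  have G0 : G a 0 = 0 := by simpa using aG.smul 0 0
  have Cadd : ∀ (f1 f2 : 𝓢(Mink, ℂ)) w, CG G φ a (fl (f1 + f2)) w =
      CG G φ a (fl f1) w + CG G φ a (fl f2) w := by
    intro f1 f2 w
    unfold CG
    rw [Rφ.addf, Rφ.addf, aG.add]
    abel
  have C0 : ∀ w, CG G φ a (fl (0 : 𝓢(Mink, ℂ))) w = 0 := by
    intro w
    unfold CG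
    rw [Rφ.zerof, Rφ.zerof, G0, sub_zero]
  have Cv : ∀ (f1 : 𝓢(Mink, ℂ)) u w, CG G φ a (fl f1) (u + w) =
      CG G φ a (fl f1) u + CG G φ a (fl f1) w := by
    intro f1 u w
    unfold CG
    rw [Rφ.mapa, aG.add, aG.add, Rφ.mapa]
    abel
  have Cv0 : ∀ (f1 : 𝓢(Mink, ℂ)), CG G φ a (fl f1) 0 = 0 := by
    intro f1
    unfold CG
    rw [Rφ.mapz, G0, Rφ.mapz, sub_zero]
  have hsp : ∀ x ∈ tsupport F, ∀ y ∈ tsupport g,
      GF.mdot (x.ofLp - y.ofLp) (x.ofLp - y.ofLp) < 0 := by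
    intro x hx y hy
    have hx' : x.ofLp ∈ tsupport (fl F) := by
      rw [tsupport_fl]
      exact hx
    have hy' : y.ofLp ∈ tsupport (fl g) := by
      rw [tsupport_fl]
      exact hy
    exact hs _ hx' _ hy'
  have step : ∀ x ∈ tsupport F, ∃ U, IsOpen U ∧ x ∈ U ∧ ∀ f', IsTest U f' →
      CG G φ a (fl f') (B (fl g) v) = B (fl g) (CG G φ a (fl f') v) := by
    intro x hx
    obtain ⟨U, hU, hKU, h2⟩ := part_induct (P := fun g' => ∃ U, IsOpen U ∧ x ∈ U ∧
      ∀ f', IsTest U f' → CG G φ a (fl f') (B (fl g') v) = B (fl g') (CG G φ a (fl f') v))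
      (by
        refine ⟨Set.univ, isOpen_univ, trivial, fun f' hf' => ?_⟩
        rw [RB.zerof, RB.zerof, Cv0 f'])
      (by
        rintro g1 g2 _ _ ⟨U1, hU1, hx1, h1⟩ ⟨U2, hU2, hx2, h2⟩
        refine ⟨U1 ∩ U2, hU1.inter hU2, ⟨hx1, hx2⟩, fun f' hf' => ?_⟩
        have e1 := h1 f' ⟨hf'.1, hf'.2.trans Set.inter_subset_left⟩
        have e2 := h2 f' ⟨hf'.1, hf'.2.trans Set.inter_subset_right⟩
        rw [RB.addf, RB.addf, Cv, e1, e2])
      hG.1.isCompact
      (by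
        intro y hy
        obtain ⟨U, W, oU, oW, hxU, hyW, hl⟩ := S.near h0 h1 ha hB v (hsp x hx y hy)
        exact ⟨_, oW, hyW, fun g' hg' => ⟨_, oU, hxU,
          fun f' hf' => hl _ _ (In_fl.2 hf') (In_fl.2 hg')⟩⟩)
    exact h2 g ⟨hG.1, hKU⟩
  obtain ⟨U, hU, hKU, h2⟩ := part_induct (P := fun f' =>
      CG G φ a (fl f') (B (fl g) v) = B (fl g) (CG G φ a (fl f') v))
    (by rw [C0, C0, RB.mapz])
    (by
      rintro f1 f2 _ _ e1 e2
      rw [Cadd, Cadd, RB.mapa, e1, e2])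
    hF.1.isCompact
    (by
      intro x hx
      exact step x hx)
  exact h2 F ⟨hF.1, hKU⟩

end

end Vale.Agent.P352.NG

end
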