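import Vale.Agent.P352.NG.Asm2
import Vale.Agent.P352.ND.NG
import Vale.Agent.P352.ND.L0b
import Vale.Agent.P352.ND.L0c

/-!
# P352 NG: conformal invariance from local generators of null deformations
-/

set_option linter.all false

noncomputable section

open MeasureTheory Filter Topology

namespace Vale.Agent.P352.NG

open GF (Ix V Fn Fld Theory IsLor bas eta o sim)
open H246 H496 H755 H15 H846 H746 N86 NC NF ND
open H121 (Cop)

variable {D : Type*} [NormedAddCommGroup D] [InnerProductSpace ℂ D]
variable {Q : GF.Theory D} {T : Ix → Ix → GF.Fld D} {J : Ix → GF.Fld D}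
  {A : (V → V) → D → D} {G : V → D → D}

/-- **Special conformal generators up to a neutral charge** from null generators. -/
theorem ngen_null (hT : Q.IsStress T) (hJ : IsVirial Q T J) (h : NullGen Q T J A G)
    (hP : PCh Q T A) : G0.NGen Q J A G (Cc Q A G) :=
  ngen hT hJ h.toKS h.bdd hP (h.netT hT)
    (fun k m n f v hf => c6_T' hT k m n (h.netT hT m n) hf v)
    (fun k m f v hf => c6_J' hJ k m (h.netJ hJ m) hf v)

/-- **Conformal invariance** from null generators. -/
theorem confG (hT : Q.IsStress T) (hJ : IsVirial Q T J) (h : NullGen Q T J A G)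
    (hP : PCh Q T A) : N86.ConfInv Q T :=
  main_confV hT hJ (ngen_null hT hJ h hP) (nlocF_ng hJ h.locJ (ngen_null hT hJ h hP))

end Vale.Agent.P352.NG

end
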